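import Vale.Agent.P352X.R.BP.B
import Vale.Agent.P352L.BL2
import Vale.Agent.P352L.Spec2
import Vale.Agent.P352L.Mul

/-!
# P352L, rows BB and BPW: commutation with far parts of the plane, dyadic steps (helper89)
-/

set_option linter.all false

open MeasureTheory Filter Topology Set
open scoped SchwartzMap ComplexConjugate ContDiff

namespace Vale.Agent.P352L.BP

open Vale.Agent.P352 Vale.Agent.P352.GF Vale.Agent.P352.BW Vale.Agent.P352.H246
open Vale.Agent.P352.H496 Vale.Agent.P352.H755 Vale.Agent.P352X Vale.Agent.P352X.Ap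
open Vale.Agent.P352X.BPa (nv null_nv md_nvv Wt jr_Wt Fr sep ex_dc dc_Bx dyadic fam ann wq
  smooth_wq)
open Vale.Agent.P352X.BX (Stp xi x2 tst_xi tst_x2)
open Vale.Agent.P132 (jconj)
open UniformSpace (Completion)

noncomputable section

variable {D : Type*} [NormedAddCommGroup D] [InnerProductSpace ℂ D] {c : Ctx D} {Q : Theory D}
  {X Y Z : Completion D →L[ℂ] Completion D} {R : ℝ} {w w' v v' : Completion D} {O : Set V}
  {g g' u u' : P3 → ℝ} {ρ χ : ℝ → ℝ} {Λ Λ' κ : ℝ}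

variable (c) in
/-- localised in all transverse wedges that contain the box -/
def Loc (R : ℝ) (Z : Completion D →L[ℂ] Completion D) : Prop :=
  ∀ w p, w ≠ 0 → BPa.Bx R ⊆ Wt w p → Z ∈ c.N (Wt w p)

lemma Loc.of (hX : X ∈ c.N O) (h : O ⊆ BPa.Bx R) : Loc c R X :=
  fun _ _ _ k => c.N_mono (h.trans k) X hX

lemma Loc.mul (h : Loc c R X) (h' : Loc c R Y) : Loc c R (X * Y) :=
  fun w p a b => mul_mem (h w p a b) (h' w p a b)

lemma Loc.J (j : JC c) (h : Loc c R X) : Loc c R (jconj c.J X) := fun w p a b =>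
  jr_Wt w p ▸ j.alg _ _ _ (null_nv _) (null_nv _) (md_nvv a) X (h w p a b)

variable (c) in
/-- `T_aa` commutes in the region `O` with the operator that the pair stands for -/
def Com (w w' : Completion D) (O : Set V) : Prop :=
  ∀ h, In O h → inner ℂ (c.Tv (hk va va (bar h))) w = inner ℂ w' (c.Tv (hk va va h))

lemma Com.sub (h : Com c w w' O) (h' : Com c v v' O) : Com c (w - v) (w' - v') O := fun f hf => by
  rw [inner_sub_left, inner_sub_right, h f hf, h' f hf]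

lemma Com.lim (h : ∀ ε > 0, ∃ v v', Com c v v' O ∧ ‖w - v‖ ≤ ε ∧ ‖w' - v'‖ ≤ ε) :
    Com c w w' O := fun f hf => by
  refine eq_of_sub_eq_zero (norm_le_zero_iff.1 (le_of_forall_pos_le_add fun η hη => ?_))
  set M := ‖c.Tv (hk va va (bar f))‖ + ‖c.Tv (hk va va f)‖ + 1 with hM
  have M0 : 0 < M := by positivity
  obtain ⟨v, v', a, b, d⟩ := h (η / M) (by positivity)
  have e : inner ℂ (c.Tv (hk va va (bar f))) w - inner ℂ w' (c.Tv (hk va va f)) =
      inner ℂ (c.Tv (hk va va (bar f))) (w - v) - inner ℂ (w' - v') (c.Tv (hk va va f)) := by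
    rw [inner_sub_left, inner_sub_right, a f hf]
    ring
  rw [e, zero_add, ← div_mul_cancel₀ η M0.ne']
  refine (norm_sub_le _ _).trans ((add_le_add (norm_inner_le_norm _ _)
    (norm_inner_le_norm _ _)).trans ?_)
  have := div_pos hη M0
  nlinarith [mul_le_mul_of_nonneg_left b (norm_nonneg (c.Tv (hk va va (bar f)))),
    mul_le_mul_of_nonneg_left d (norm_nonneg (c.Tv (hk va va f)))]

theorem Loc.com (g : GRP c) (j : JC c) (hR : 0 < R) (h : Loc c R Z) :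
    Com c (Z c.Om) (star Z c.Om) (Fr R) := fun f hf => by
  refine Ap.in_ind (P := fun f => inner ℂ (c.Tv (hk va va (bar f))) (Z c.Om) =
    inner ℂ (star Z c.Om) (c.Tv (hk va va f))) ?_ (fun f f' a b d e => ?_) (fun z hz => ?_) hf
  · have : bar (fun _ => 0) = fun _ => 0 := funext fun _ => star_zero _
    rw [this, BL.Tv_zero, inner_zero_left, inner_zero_right]
  · have : bar (fun x => f x + f' x) = fun x => bar f x + bar f' x := funext fun _ => star_add _ _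
    rw [this, BL.Tv_add (Ap.test_bar a.1) (Ap.test_bar b.1), BL.Tv_add a.1 b.1, inner_add_left,
      inner_add_right, d, e]
  · obtain ⟨w, p, a, b, d⟩ := sep hR hz
    refine ⟨Wt w p, (wdg_open _ _ _).mem_nhds b, fun f hf => ?_⟩
    have k := h _ p (neg_ne_zero.2 a) d
    rw [Wt, neg_neg, ← j.dual _ _ _ (null_nv _) (null_nv _) (md_nvv a)] at k
    have := g.pr_Tv (Ap.in_hk va va (Ap.in_mono hf Set.inter_subset_left)) Z k
    simp only [Ap.bar_hk] at this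
    exact this.symm

variable (Q) in
/-- Lipschitz bounds for the null rotations that fix `b` -/
def Lp (v : Completion D) (Λ : ℝ) : Prop := ‖v‖ ≤ Λ ∧ ∀ s, ‖Gb Q s v - v‖ ≤ Λ * |s|

lemma Lp.nonneg (h : Lp Q v Λ) : 0 ≤ Λ := (norm_nonneg _).trans h.1

variable (Q) in
/-- decay along the plane -/
def Tl (κ : ℝ) (F : ℝ → Completion D) : Prop := ∃ C, 0 ≤ C ∧ ∀ L, 1 ≤ L → ∀ w Λ, Lp Q w Λ →
  ‖inner ℂ (F L) w‖ ≤ C * L ^ (-κ) * Λ

lemma Tl.add {F G : ℝ → Completion D} (h : Tl Q κ F) (h' : Tl Q κ G) :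
    Tl Q κ fun L => F L + G L := by
  obtain ⟨C, a, b⟩ := h
  obtain ⟨C', a', b'⟩ := h'
  refine ⟨C + C', add_nonneg a a', fun L hL w Λ hw => ?_⟩
  rw [inner_add_left, add_mul, add_mul]
  exact (norm_add_le _ _).trans (add_le_add (b L hL w Λ hw) (b' L hL w Λ hw))

lemma Tl.congr {F G : ℝ → Completion D} (h : Tl Q κ F) (e : ∀ L, 1 ≤ L → G L = F L) : Tl Q κ G :=
  h.imp fun _ k => ⟨k.1, fun L hL => (e L hL).symm ▸ k.2 L hL⟩

theorem two_of (h : TWO c) : BL.Two c := by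
  obtain ⟨C, C0, e⟩ := h (1 / 4) (by norm_num)
  have a := Real.exp_pos (2 * c.tau)
  refine ⟨C * Wt.Lm (Real.exp (2 * c.tau)), mul_nonneg C0 (Wt.Lm_pos a).le, fun x h k f hf =>
    (e x h k f hf).trans (withDensity_mono ((ae_restrict_mem meas_Fc).mono fun p hp =>
      ENNReal.ofReal_le_ofReal ?_))⟩
  have b := Wt.Lm_mul a (mul_pos (Real.exp_pos (2 * x)) ((mem_Fc p).1 hp).2)
  rw [← mul_assoc, ← Real.exp_add, ← mul_add] at b
  have n1 := Two.nn_nonneg h hp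
  have n2 := Two.nn_nonneg k hp
  rw [mul_assoc C (Wt.Lm _)]
  gcongr
  exact b

/-- the bound of row `BAS` -/
def TailB (c : Base D) (C κ : ℝ) : Prop := ∀ η w (Λ C0 L : ℝ), 1 ≤ L → 0 ≤ C0 → Dm (Pa c.Q) η →
  (∀ s, ‖Gb c.Q s w - w‖ ≤ Λ * |s|) →
  (∀ s ∈ Set.Ioc (0 : ℝ) 1, c.nu η {p | al p < s} ≤ ENNReal.ofReal (C0 ^ 2 * s)) →
  ‖inner ℂ (Usc c.Q L 1 η) w‖ ≤ C * L ^ (-κ) * (‖w‖ + Λ) * (C0 + ‖η‖ + ‖gen (Pa c.Q) η‖)

theorem node (t : T3 c) {C : ℝ} (h : TailB c.toBase C κ) (hg : Tst g) (hρ : Tst ρ) :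
    ∃ K, ∀ L, 1 ≤ L → ∀ w Λ, Lp c.Q w Λ →
      ‖inner ℂ (Usc c.Q L 1 (BL.TP c va va g ρ)) w‖ ≤ K * (L ^ (-κ) * Λ) := by
  obtain ⟨m, C1, c1, hn⟩ := BL.low (two_of t.two)
  set C0 := C1 * ‖va‖ * ‖va‖ * sn m (sch (pr g ρ)) with hC0
  have c0 : 0 ≤ C0 := mul_nonneg (by positivity) (BL.sn_nn _ _)
  set η := BL.TP c va va g ρ
  refine ⟨|C| * 2 * (C0 + ‖η‖ + ‖gen (Pa c.Q) η‖), fun L hL w Λ hw => ?_⟩
  refine (h η w Λ C0 L hL c0 (t.gen.ut va va va _ (test_pr hg hρ)).dm hw.2 fun s hs => ?_).trans ?_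
  · have := (hn va va (sch (pr g ρ)) s hs.1).1
    rw [ev_sch (test_pr hg hρ)] at this
    rw [Base.nu, c.bt.nu_apply (measurableSet_lt meas_al measurable_const)]
    refine ENNReal.ofReal_le_ofReal ((pow_le_pow_left₀ (norm_nonneg _) this 2).trans_eq ?_)
    rw [hC0, ← Real.sq_sqrt hs.1.le, Real.sqrt_sq (Real.sqrt_nonneg _)]
    ring
  · have := hw.nonneg
    have : 0 ≤ L ^ (-κ) := Real.rpow_nonneg (by linarith) _
    calc _ ≤ |C| * L ^ (-κ) * (Λ + Λ) * (C0 + ‖η‖ + ‖gen (Pa c.Q) η‖) := by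
          gcongr
          exacts [le_abs_self C, hw.1]
      _ = _ := by ring

theorem pol_l {J : ℕ} {F : ℝ → Completion D} (h : IsPol J F) (w : Completion D) :
    IsPol J fun x => inner ℂ (F x) w :=
  h.map' (fun z => inner ℂ z w) (fun _ _ => inner_add_left ..) fun t z => by
    rw [← Complex.coe_smul, inner_smul_left, Complex.conj_ofReal, Complex.real_smul]

theorem pol_r {J : ℕ} {F : ℝ → Completion D} (h : IsPol J F) (w : Completion D) :
    IsPol J fun x => inner ℂ w (F x) :=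
  h.map' (fun z => inner ℂ w z) (fun _ _ => inner_add_right ..) fun t z => by
    rw [← Complex.coe_smul, inner_smul_right, Complex.real_smul]

theorem tail0 (t : T3 c) {C : ℝ} (h : TailB c.toBase C κ) (hκ : 0 < κ) (hg : Tst g) (hρ : Tst ρ)
    (a : ℝ → ℝ) (A : ℝ) (hA : 0 ≤ A) (ha : ∀ L, 1 ≤ L → |a L| ≤ A * L) :
    Tl c.Q (κ / 2) fun L => BL.TP c va va (fun y => a L * kL g L y) ρ := by
  obtain ⟨K, K0, hK⟩ := IsPol.unif (J := c.n0) (P := fun q : ℝ × Completion D × ℝ =>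
      1 ≤ q.1 ∧ Lp c.Q q.2.1 q.2.2) (r := fun q => q.1 ^ (-κ) * q.2.2)
    (F := fun q x => inner ℂ (Usc c.Q q.1 1 (BL.TP (c.sh x) va va g ρ)) q.2.1)
    (fun q _ => pol_l ((BL.pol_TP t.grp hg hρ va va).map' (fun z => Usc c.Q q.1 1 z)
      (fun _ _ => map_add ..) fun _ _ => ContinuousLinearMap.map_smul_of_tower ..) _)
    (fun q hq => mul_nonneg (Real.rpow_nonneg (by linarith [hq.1]) _) hq.2.nonneg)
    fun x => (node (t.sh x) h hg hρ).imp fun K e q hq => e _ hq.1 _ _ hq.2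
  obtain ⟨K', K1, hK'⟩ := log_le_rpow_top c.n0 (-(1 / 2)) 0 (half_pos hκ)
  refine ⟨A * (K * K'), by positivity, fun L hL w Λ hw => ?_⟩
  have L0 : 0 < L := one_pos.trans_le hL
  have h3 := hK (L, w, Λ) ⟨hL, hw⟩ (-(Real.log L / 2))
  have h4 := hK' L hL
  rw [show 0 + -(1 / 2) * Real.log L = -(Real.log L / 2) by ring] at h4
  have h5 := BL.usc_aa (t.sh (-(Real.log L / 2))).grp L0 hg hρ
  rw [BL.sh_back'] at h5
  dsimp only at h3 h5
  rw [h5, inner_smul_left, norm_mul, Complex.conj_ofReal, Complex.norm_real,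
    Real.norm_of_nonneg L0.le] at h3
  beta_reduce
  rw [BL.TP_mul_g _ (tst_kL hg L0) hρ, inner_smul_left, norm_mul, Complex.conj_ofReal,
    Complex.norm_real, Real.norm_eq_abs]
  refine (mul_le_mul_of_nonneg_right (ha L hL) (norm_nonneg _)).trans ?_
  rw [mul_assoc, mul_assoc, mul_assoc]
  refine mul_le_mul_of_nonneg_left (h3.trans ?_) hA
  have := hw.nonneg
  have : 0 ≤ L ^ (-κ) := Real.rpow_nonneg L0.le _
  calc _ ≤ K * (K' * L ^ (κ / 2)) * (L ^ (-κ) * Λ) := by gcongr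
    _ = _ := by
      rw [show -(κ / 2) = κ / 2 + -κ by ring, Real.rpow_add L0]
      ring

variable (c) in
/-- decay of the second moments -/
def Tq (κ : ℝ) : Prop := ∀ g ρ y, Tst g → Tst ρ →
  Tl c.Q κ fun L => BL.TP c va va (fun q => wq y q * kL g L q) ρ

theorem tail1 (t : T3 c) {C : ℝ} (hb : TailB c.toBase C κ) (hκ : 0 < κ) : Tq c (κ / 2) := by
  have h := fun g ρ hg hρ => tail0 t hb hκ (g := g) (ρ := ρ) hg hρ
  intro g ρ y hg hρ
  have hi := fun i => h _ ρ (tst_xi i hg) hρ (fun L => -2 * y i * Real.sqrt L) (2 * |y i|)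
    (by positivity) fun L hL => by
      rw [abs_mul, abs_mul, abs_neg, abs_two, abs_of_nonneg (Real.sqrt_nonneg _)]
      exact mul_le_mul_of_nonneg_left (Real.sqrt_le_iff.2 ⟨by linarith, by nlinarith⟩)
        (by positivity)
  refine ((((h _ ρ (tst_x2 hg) hρ id 1 zero_le_one fun L hL => by
    rw [id, one_mul, abs_of_nonneg (by linarith)]).add (hi 0)).add (hi 1)).add
    (h _ ρ hg hρ (fun _ => d2 y y) _ (d2_nonneg y) fun L hL => by
      rw [abs_of_nonneg (d2_nonneg y)]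
      exact le_mul_of_one_le_right (d2_nonneg y) hL)).congr fun L hL => ?_
  have L0 : 0 < L := one_pos.trans_le hL
  have k := fun (a : ℝ) {g} (hg : Tst g) => cs_cmul a (tst_kL hg L0)
  rw [← BL.TP_add_g (k _ (tst_x2 hg)) (k _ (tst_xi 0 hg)) hρ,
    ← BL.TP_add_g (cs_add (k _ (tst_x2 hg)) (k _ (tst_xi 0 hg))) (k _ (tst_xi 1 hg)) hρ,
    ← BL.TP_add_g (cs_add (cs_add (k _ (tst_x2 hg)) (k _ (tst_xi 0 hg))) (k _ (tst_xi 1 hg)))
      (k _ hg) hρ]
  congr 1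
  funext q
  have s0 := (Real.sqrt_pos.2 L0).ne'
  have s1 : L = Real.sqrt L * Real.sqrt L := (Real.mul_self_sqrt L0.le).symm
  simp only [wq, kL, x2, xi, d2, id, Pi.sub_apply, Pi.smul_apply, smul_eq_mul]
  generalize g _ = b
  generalize Real.sqrt L = s at s0 s1
  rw [s1]
  field_simp
  ring

theorem tail (t : T3 c) : ∃ κ, 0 < κ ∧ ∀ x, Tq (c.sh x) κ :=
  let ⟨_, κ, hκ, h⟩ := t.bas.tail
  ⟨κ / 2, half_pos hκ, fun x => tail1 (t.sh x) h hκ⟩

variable (c) in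
/-- the form of `T_aa(g ρ)`, split by the step `u` -/
def Of (w w' : Completion D) (ρ : ℝ → ℝ) (u g : P3 → ℝ) : ℂ :=
  inner ℂ (BL.TP c va va (fun y => u y * g y) ρ) w + inner ℂ w' (BL.TP c va va (fun y => (1 - u y) * g y) ρ)

lemma Of_step (h : Com c w w' O) (hu : ContDiff ℝ ∞ u) (hu' : ContDiff ℝ ∞ u') (hg : Tst g)
    (hρ : Tst ρ) (k : In O (pr (fun y => (u y - u' y) * g y) ρ)) :
    Of c w w' ρ u g = Of c w w' ρ u' g := by
  have e := h _ k
  have a := cs_mul_l (hu.sub hu') hg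
  rw [Ap.bar_pr] at e
  rw [Of, Of, show (fun y => u y * g y) = fun y => u' y * g y + (u y - u' y) * g y from
    funext fun y => by ring, show (fun y => (1 - u y) * g y) =
      fun y => (1 - u' y) * g y - (u y - u' y) * g y from funext fun y => by ring,
    BL.TP_add_g (cs_mul_l hu' hg) a hρ, BL.TP_sub_g (cs_mul_l (contDiff_const.sub hu') hg) a hρ,
    inner_add_left, inner_sub_right, BL.TP, BL.TP, BL.TP, e]
  ring

lemma Of_add (hu : ContDiff ℝ ∞ u) (hg : Tst g) (hg' : Tst g') (hρ : Tst ρ) :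
    Of c w w' ρ u (fun y => g y + g' y) = Of c w w' ρ u g + Of c w w' ρ u g' := by
  simp only [Of, mul_add]
  rw [BL.TP_add_g (cs_mul_l hu hg) (cs_mul_l hu hg') hρ, BL.TP_add_g (cs_mul_l (contDiff_const.sub hu) hg)
    (cs_mul_l (contDiff_const.sub hu) hg') hρ, inner_add_left, inner_add_right]
  ring

theorem near (hu : ContDiff ℝ ∞ u) (hg : Tst g) (hρ : Tst ρ) {A : ℝ} (hA : 0 < A) :
    ∃ M, 0 ≤ M ∧ ∀ t ∈ Icc A (2 * A), ‖BL.TP c va va (fun y => u y * kL g t y) ρ‖ ≤ M := by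
  have s : Icc A (2 * A) ⊆ Ioi 0 := fun t ht => hA.trans_le ht.1
  obtain ⟨M, hM⟩ := isCompact_Icc.exists_bound_of_continuousOn
    ((BL.TL c va va).continuous.comp_continuousOn ((fam hu hg hρ).continuousOn.mono s))
  refine ⟨|M|, abs_nonneg _, fun t ht => ?_⟩
  rw [BL.TP_sch (cs_mul_l hu (tst_kL hg (s ht))) hρ]
  exact (hM t ht).trans (le_abs_self _)

variable (c) in
/-- the second moment with the cutoff `L` -/
abbrev Oq (w w' : Completion D) (ρ χ : ℝ → ℝ) (g : P3 → ℝ) (y : R2) (L : ℝ) : ℂ :=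
  Of c w w' ρ (fun q => χ q.1) fun q => wq y q * kL g L q

/-- **one dyadic step** -/
theorem step {d : ℝ} (hR : 0 < R) (hχ : Stp d χ) (hg : Cut g) (hρ : Tst ρ)
    (sρ : tsupport ρ ⊆ Icc (-R) R) (y : R2) : ∃ A, 1 ≤ A ∧ ∀ (c : Ctx D) κ, Tq c κ → ∃ C, 0 ≤ C ∧
      ∀ w w' Λ, Lp c.Q w Λ → Lp c.Q w' Λ → Com c w w' (Fr R) → ∀ s, A ≤ s →
        ‖Oq c w w' ρ χ g y (2 * s) - Oq c w w' ρ χ g y s‖ ≤ C * Λ * s ^ (-κ) := by
  have g1 : Tst fun q => kL g 2 q - g q := cs_sub (tst_kL hg.1 two_pos) hg.1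
  obtain ⟨σ, A, s1, hA, hs⟩ := ann g1 (notMem_tsupport_iff_eventuallyEq.2
    (((cut_kL hg two_pos).2.and hg.2).mono fun q k => by simp [k.1, k.2])) hR hχ hρ sρ
  have x1 : ContDiff ℝ ∞ fun q : P3 => χ q.1 := hχ.1.comp contDiff_fst
  refine ⟨A, hA, fun c κ h => ?_⟩
  obtain ⟨C1, c1, h1⟩ := h _ ρ y (cs_mul_l s1 g1) hρ
  obtain ⟨C2, c2, h2⟩ := h _ ρ y (cs_mul_l ((contDiff_const (c := (1 : ℝ))).sub s1) g1) hρ
  refine ⟨C1 + C2, by positivity, fun w w' Λ a b e s hs' => ?_⟩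
  have s1' := hA.trans hs'
  have s0 := one_pos.trans_le s1'
  have k0 := cs_mul_l (smooth_wq y) (tst_kL g1 s0)
  have e1 : (fun q => wq y q * kL g (2 * s) q) = fun q => wq y q * kL g s q +
      wq y q * kL (fun q => kL g 2 q - g q) s q := funext fun q => by
    rw [← kL_kL g zero_le_two]
    simp only [kL]
    ring
  simp only [Oq, e1]
  rw [Of_add x1 (cs_mul_l (smooth_wq y) (tst_kL hg.1 s0)) k0 hρ,
    Of_step e x1 (smooth_kL s1 s) k0 hρ (hs s hs' _ (smooth_wq y)), add_sub_cancel_left]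
  refine (norm_add_le _ _).trans ?_
  have k1 := h1 s s1' w Λ a
  have k2 := h2 s s1' w' Λ b
  rw [norm_inner_symm] at k2
  simp only [mul_left_comm _ (wq y _)]
  exact (add_le_add k1 k2).trans_eq (by ring)

/-- **the uniform bound** -/
theorem ub (t : T3 c) {d : ℝ} (hR : 0 < R) (hχ : Stp d χ) (hg : Cut g) (hρ : Tst ρ)
    (sρ : tsupport ρ ⊆ Icc (-R) R) (y : R2) : ∃ C A, 0 ≤ C ∧ ∀ w w' Λ, Lp c.Q w Λ → Lp c.Q w' Λ →
      Com c w w' (Fr R) → ∀ L, A ≤ L → ‖Oq c w w' ρ χ g y L‖ ≤ C * Λ := by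
  obtain ⟨κ, hκ, h⟩ := tail t
  obtain ⟨A, hA, hs⟩ := step (D := D) hR hχ hg hρ sρ y
  obtain ⟨C, C0, hC⟩ := hs c κ (All.zero (P := fun c => Tq c κ) h)
  have x1 : ContDiff ℝ ∞ fun q : P3 => χ q.1 := hχ.1.comp contDiff_fst
  obtain ⟨M1, m1, n1⟩ := near (c := c) (x1.mul (smooth_wq y)) hg.1 hρ (one_pos.trans_le hA)
  obtain ⟨M2, m2, n2⟩ := near (c := c) (((contDiff_const (c := (1 : ℝ))).sub x1).mul (smooth_wq y))
    hg.1 hρ (one_pos.trans_le hA)
  have q : 0 < 1 - (2 : ℝ) ^ (-κ) :=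
    sub_pos.2 (Real.rpow_lt_one_of_one_lt_of_neg one_lt_two (neg_neg_of_pos hκ))
  refine ⟨M1 + M2 + C / (1 - 2 ^ (-κ)), A, by positivity, fun w w' Λ a b e L hL => ?_⟩
  have Λ0 := a.nonneg
  refine (dyadic (f := fun L => ‖Oq c w w' ρ χ g y L‖)
    (M := (M1 + M2) * Λ) (C := C * Λ) hA (by positivity) hκ (fun s hs => ?_)
    (fun s hs' => ?_) L hL).trans_eq (by ring)
  · have k1 := n1 s hs
    have k2 := n2 s hs
    simp only [mul_assoc] at k1 k2
    refine (norm_add_le _ _).trans ((add_le_add (norm_inner_le_norm _ _)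
      (norm_inner_le_norm _ _)).trans ?_)
    nlinarith [mul_le_mul k1 a.1 (norm_nonneg _) m1, mul_le_mul b.1 k2 (norm_nonneg _) Λ0]
  · exact (norm_le_insert' _ _).trans (add_le_add le_rfl (hC w w' Λ a b e s hs'))

end

end Vale.Agent.P352L.BP
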