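import Vale.Agent.P352L.BP.A
import Vale.Agent.P352L.CK.Lwf
import Vale.Agent.P352L.CK.Kp

/-!
# P352L, rows BB and BPW: from bounded operators to fields (helper89)
-/

set_option linter.all false

open MeasureTheory Filter Topology Set
open scoped SchwartzMap ComplexConjugate ContDiff

namespace Vale.Agent.P352L.BP

open Vale.Agent.P352 Vale.Agent.P352.GF Vale.Agent.P352.BW Vale.Agent.P352.H246
open Vale.Agent.P352.H496 Vale.Agent.P352.H755 Vale.Agent.P352X Vale.Agent.P352X.Ap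
open Vale.Agent.P352X.BPa (Fr wq smooth_wq)
open Vale.Agent.P352X.BX (Stp)
open Vale.Agent.P352L.CK (TS evT barT snT InT TsT)
open Vale.Agent.P132 (jconj)
open UniformSpace (Completion)

noncomputable section

variable {D : Type*} [NormedAddCommGroup D] [InnerProductSpace ℂ D] {c : Ctx D} {Q : Theory D}
  {w w' v v' : Completion D} {O : Set V} {g u : P3 → ℝ} {ρ χ : ℝ → ℝ} {Λ Λ' : ℝ}
  {X : Completion D →L[ℂ] Completion D} {F : Ix → Ix → Fn}

lemma Lp.mono (h : Lp Q v Λ) (e : Λ ≤ Λ') : Lp Q v Λ' :=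
  ⟨h.1.trans e, fun s => (h.2 s).trans (mul_le_mul_of_nonneg_right e (abs_nonneg s))⟩

lemma Lp.add (h : Lp Q v Λ) (h' : Lp Q w Λ') : Lp Q (v + w) (Λ + Λ') :=
  ⟨(norm_add_le _ _).trans (add_le_add h.1 h'.1), fun s => by
    rw [map_add, add_sub_add_comm, add_mul]
    exact (norm_add_le _ _).trans (add_le_add (h.2 s) (h'.2 s))⟩

lemma Lp.neg (h : Lp Q v Λ) : Lp Q (-v) Λ :=
  ⟨(norm_neg v).trans_le h.1, fun s => by
    rw [map_neg, ← neg_sub', norm_neg]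
    exact h.2 s⟩

lemma J_ug (hj : JC c) {L L' : Ix → V} (hL : IsLor L)
    (e : ∀ z, sim 1 L' 0 (jr z) = jr (sim 1 L 0 z)) (z : Completion D) :
    c.J (Ug c.Q 1 L 0 z) = Ug c.Q 1 L' 0 (c.J z) := by
  have h0 : jr 0 = 0 := null_ext (by simp) (by simp) (by simp)
  have : jL L = L' := funext fun m => by
    rw [← Gen.sim_bas (jL L), ← Gen.sim_bas L', ← jr_jr (GF.one m), e, ← (hj.lor L hL).2, h0]
  rw [hj.ug _ _ _ _ one_pos hL, this, h0]

lemma Lp.of (G : GRP c) (h : CK.Lw c v Λ) : Lp c.Q v Λ :=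
  ⟨h.n0, fun s => (G.ugGb.lip h.dg.gn s).trans (mul_le_mul_of_nonneg_right h.ng (abs_nonneg s))⟩

lemma J_Gb (G : GRP c) (j : JC c) (s : ℝ) (z : Completion D) :
    c.J (Gb c.Q s z) = Gb c.Q (-s) (c.J z) := by
  refine J_ug j (G.lgb _).1 (fun z => ?_) z
  rw [(G.lgb _).2, (G.lgb _).2]
  refine null_ext (by simp) ?_ (by simp)
  simp only [be_gbp, al_jr, be_jr, tx_jr]
  ring

lemma Lp.J (G : GRP c) (j : JC c) (h : Lp c.Q v Λ) : Lp c.Q (c.J v) Λ :=
  ⟨(c.J.norm_map v).trans_le h.1, fun s => by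
    rw [← neg_neg s, ← J_Gb G j, ← map_sub, c.J.norm_map]
    simpa only [abs_neg] using h.2 (-s)⟩

lemma Lp.op (G : GRP c) (hX : c.Good X) : ∃ C, 0 ≤ C ∧ ∀ v Λ, Lp c.Q v Λ → Lp c.Q (X v) (C * Λ) := by
  obtain ⟨Y, -, h⟩ := CK.Smv.good_der G (CK.Smv.dirG G) G.gb0 (fun _ => G.uni _ _ _) hX
  refine ⟨‖Y‖ + ‖X‖, by positivity, fun v Λ hv => ?_⟩
  obtain ⟨a, b⟩ := G.ugGb.dm_of_lip (K := Λ) (ψ := v) (.of_forall hv.2)
  have k1 := X.le_of_opNorm_le_of_le le_rfl hv.1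
  have k2 := Y.le_of_opNorm_le_of_le le_rfl hv.1
  have k3 := X.le_of_opNorm_le_of_le le_rfl b
  refine ⟨by nlinarith [norm_nonneg (Y v)], fun s => (G.ugGb.lip (h v a) s).trans
    (mul_le_mul_of_nonneg_right ((norm_add_le _ _).trans (by linarith)) (abs_nonneg s))⟩

lemma Lp.om (G : GRP c) : Lp c.Q c.Om 1 :=
  ⟨c.norm_Om.le, fun s => by rw [Gb, G.vac, sub_self, norm_zero]; positivity⟩

lemma snT_bar (m : ℕ) (G : TS) : ∃ G' : TS, evT G' = barT (evT G) ∧ snT m G' ≤ snT m G := by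
  have : ∀ g : Sch, ∃ g' : Sch, ev g' = bar (ev g) ∧ sn m g' ≤ sn m g := fun g => by
    obtain ⟨g', hg'⟩ : IsTest (bar (ev g)) := test_bar ⟨g, rfl⟩
    refine ⟨g', hg', Lie.sn_le (Lie.sn_nonneg m g) fun k hk n hn x => ?_⟩
    have h1 : (g' : V → ℂ) = Complex.conjLIE ∘ g := hg'
    rw [h1, Complex.conjLIE.norm_iteratedFDeriv_comp_left]
    exact (g.le_seminorm ℂ k n x).trans (Lie.le_sn hk hn g)
  choose b h1 h2 using this
  exact ⟨fun I => b (G I), funext₂ fun m n => h1 _, Finset.sum_le_sum fun I _ => h2 _⟩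

lemma Tv_add (hF : TsT F) {G : Ix → Ix → Fn} (hG : TsT G) :
    c.Tv (fun m n x => F m n x + G m n x) = c.Tv F + c.Tv G := BL.Tv_add' hF hG

/-- approximation of the field by good operators -/
theorem apx (t : T1 c) {y : V} {r ε : ℝ} (hf : InT (dc y r) F) (hε : 0 < ε) :
    ∃ Y ∈ c.N (dc y r), c.Good Y ∧ Lp c.Q (c.Tv F - Y c.Om) ε ∧
      Lp c.Q (c.Tv (barT F) - star Y c.Om) ε := by
  obtain ⟨F, rfl⟩ := hf.tst.ex
  have s := CK.smv_of t
  obtain ⟨m, C, C0, h⟩ := CK.Lwf.fm_lw (CK.Lwf.fmT c) t.grp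
  have p : 0 < C + 1 := by positivity
  obtain ⟨F', Y, -, a, b, d⟩ := s.fld y r F m (ε / 2 / (C + 1)) hf (by positivity)
  obtain ⟨G, g1, g2⟩ := snT_bar m (F' - F)
  have a0 := CK.snT_nonneg m (F' - F)
  have a1 : (C + 1) * snT m (F' - F) ≤ ε / 2 := ((lt_div_iff₀' p).1 a).le
  have a2 := mul_le_mul_of_nonneg_left g2 C0
  obtain ⟨n, n1, n2⟩ := (((d c.Q.vac 2).1.eventually (gt_mem_nhds (half_pos hε))).and
    ((d c.Q.vac 2).2.eventually (gt_mem_nhds (half_pos hε)))).exists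
  have k1 := (Lp.of t.grp (s.lw _ (s.sub _ _ (s.app _ _ (b n).2.1 s.vac) (t.gen.sm _))).1).mono
    n1.le
  have k2 := (Lp.of t.grp (s.lw _ (s.sub _ _ (s.app _ _ (s.adj _ (b n).2.1) s.vac)
    (t.gen.sm _))).1).mono n2.le
  have k3 : Lp c.Q (c.Tv (evT (F' - F))) (ε / 2) := (Lp.of t.grp (h (F' - F))).mono (by nlinarith)
  have k4 : Lp c.Q (c.Tv (evT G)) (ε / 2) := (Lp.of t.grp (h G)).mono (by nlinarith)
  have e : c.Tv (evT G) = c.Tv (barT (evT F')) - c.Tv (barT (evT F)) := by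
    rw [eq_sub_iff_add_eq, ← Tv_add (CK.tsT_ev _) (CK.tsT_ev _).bar, g1]
    congr 1
    funext m n x
    simp [barT, evT, bar, ev]
  rw [e] at k4
  rw [CK.Tv_sub] at k3
  refine ⟨Y n, (b n).1, (b n).2.1, ?_, ?_⟩
  · convert (k1.add k3).neg using 1
    · exact (neg_sub _ _).symm.trans (congrArg _ (sub_add_sub_cancel _ _ _).symm)
    · ring
  · convert (k2.add k4).neg using 1
    · exact (neg_sub _ _).symm.trans (congrArg _ (sub_add_sub_cancel _ _ _).symm)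
    · ring

/-- the mirror image of a tensor -/
def jT (F : Ix → Ix → Fn) : Ix → Ix → Fn := fun m n z =>
  ((sj m * sj n : ℝ) : ℂ) * bar (fun z => F m n (jr z)) z

lemma in_jT (h : InT O F) : InT (jr ⁻¹' O) (jT F) := fun m n =>
  Ap.in_cmul _ (Ap.in_bar (in_conf0 conf_jr (h m n)))

lemma jT_jT (F : Ix → Ix → Fn) : jT (jT F) = F := by
  funext m n z
  have e : ∀ m, (sj m : ℂ) * sj m = 1 := fun m => by
    rw [← Complex.ofReal_mul]; fin_cases m <;> simp [sj]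
  simp only [jT, bar, jr_jr, star_mul', star_star, Complex.star_def, Complex.conj_ofReal,
    Complex.ofReal_mul, Complex.conj_conj]
  linear_combination (sj n * sj n * F m n z) * e m + F m n z * e n

lemma bar_jT (F : Ix → Ix → Fn) : barT (jT F) = jT (barT F) := by
  funext m n z
  simp [jT, barT, bar]

lemma J_Tv (j : JC c) (h : TsT F) : c.J (c.Tv F) = c.Tv (jT F) := by
  have e : ∀ m n, c.T m n (jT F m n) c.Q.vac = ((sj m * sj n : ℝ) : ℂ) •
      c.T m n (bar fun z => F m n (jr z)) c.Q.vac := fun m n =>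
    Grp.fld_smul (CK.T_fld c m n) _ (test_bar (test_conf0 conf_jr (h m n))) _
  have s : ∀ v : Ix → Ix → D, ((∑ m, ∑ n, v m n : D) : Completion D) =
      ∑ m, ∑ n, (v m n : Completion D) := fun v => by
    change Completion.toComplL (𝕜 := ℂ) _ = _
    simp only [map_sum]
    rfl
  simp only [Ctx.Tv, Ctx.Tf, e, s, map_sum, j.one _ _ _ (h _ _), Completion.coe_smul]

lemma Of_vec (w w' v v' : Completion D) :
    Of c (w + v) (w' + v') ρ u g = Of c w w' ρ u g + Of c v v' ρ u g := by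
  simp only [Of, inner_add_left, inner_add_right]
  ring

lemma om2_eq (w w' : Completion D) :
    c.om2 w w' χ (hk va va (pr g ρ)) = Of c w w' ρ (fun q => χ q.1) g := by
  rw [Ctx.om2, Of, BL.TP, BL.TP]
  congr 3 <;> funext m n z <;> simp [hk, pr, bar] <;> ring

/-- limits along approximations -/
theorem lim {F : ℝ → P3 → ℝ} {C A : ℝ} {ψ k : Completion D} (hC : 0 ≤ C)
    (h : ∀ w w' Λ, Lp c.Q w Λ → Lp c.Q w' Λ → Com c w w' O → ∀ L, A ≤ L →
      ‖Of c w w' ρ u (F L)‖ ≤ C * Λ)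
    (a : ∀ ε > 0, ∃ v v' φ, Com c v v' O ∧ Lp c.Q (w - v) ε ∧ Lp c.Q (w' - v') ε ∧ ‖ψ - φ‖ ≤ ε ∧
      Tendsto (fun L => Of c v v' ρ u (F L)) atTop (𝓝 (inner ℂ φ k))) :
    Tendsto (fun L => Of c w w' ρ u (F L)) atTop (𝓝 (inner ℂ ψ k)) := by
  have h0 : Com c w w' O := Com.lim fun ε hε =>
    let ⟨v, v', _, a1, a2, a3, _⟩ := a ε hε
    ⟨v, v', a1, a2.1, a3.1⟩
  refine Metric.tendsto_nhds.2 fun η hη => ?_
  have p : 0 < C + ‖k‖ + 1 := by positivity
  obtain ⟨v, v', φ, a1, a2, a3, a4, a5⟩ := a _ (div_pos hη p)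
  filter_upwards [eventually_ge_atTop A, Metric.tendsto_nhds.1 a5 _ (div_pos hη p)] with L b1 b2
  have b3 := h _ _ _ a2 a3 (h0.sub a1) L b1
  have b4 := (norm_inner_le_norm (𝕜 := ℂ) (ψ - φ) k).trans
    (mul_le_mul_of_nonneg_right a4 (norm_nonneg k))
  have e : Of c w w' ρ u (F L) - inner ℂ ψ k = Of c v v' ρ u (F L) - inner ℂ φ k +
      Of c (w - v) (w' - v') ρ u (F L) - inner ℂ (ψ - φ) k := by
    rw [inner_sub_left, sub_add_eq_add_sub, ← Of_vec, add_sub_cancel, add_sub_cancel]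
    ring
  rw [dist_eq_norm] at b2 ⊢
  rw [e, ← div_mul_cancel₀ η p.ne']
  refine ((norm_sub_le _ _).trans (add_le_add (norm_add_le _ _) le_rfl)).trans_lt ?_
  linarith

/-- the field is moved to the right of the plane -/
theorem ident (t : T1 c) {u0 d0 : ℝ} (hu : 0 < u0) (hd : 0 < d0)
    (hO : O ⊆ {z | be z < -u0 ∧ d0 < al z}) (hX : X ∈ c.N O)
    (hf : InT {z | u0 < be z ∧ al z < -d0} F) (hχ : Stp d0 χ) (hg : Tst g) (hρ : Tst ρ)
    (sρ : tsupport ρ ⊆ Ioo (-u0) u0) :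
    inner ℂ ((c.Tf (hk va va (pr g ρ)) (c.Tf (barT F) c.Q.vac) : D) : Completion D) (X c.Om) =
      Of c (X (c.Tv F)) (star X (c.Tv (barT F))) ρ (fun q => χ q.1) g := by
  have x1 : ContDiff ℝ ∞ fun q : P3 => χ q.1 := hχ.1.comp contDiff_fst
  have g1 := cs_mul_l x1 hg
  have g2 := cs_mul_l ((contDiff_const (c := (1 : ℝ))).sub x1) hg
  have i1 : In {z | be z < u0 ∧ -d0 / 2 ≤ al z} (pr (fun q => χ q.1 * g q) ρ) :=
    Ap.in_pr g1 hρ fun z a b => ⟨(sρ b).2, tsupp_sub (K := {q : P3 | -d0 / 2 ≤ q.1})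
      (isClosed_le continuous_const continuous_fst) (fun q k => by_contra fun k' =>
        left_ne_zero_of_mul k (hχ.2.1 _ (lt_of_not_ge k').le)) a⟩
  have i2 : In {z | al z < d0 ∧ -u0 < be z} (pr (fun q => (1 - χ q.1) * g q) ρ) :=
    Ap.in_pr g2 hρ fun z a b => ⟨(show al z ≤ d0 / 2 from tsupp_sub (K := {q : P3 | q.1 ≤ d0 / 2})
      (isClosed_le continuous_fst continuous_const) (fun q k => by_contra fun k' =>
        left_ne_zero_of_mul k (by rw [hχ.2.2 _ (lt_of_not_ge k').le, sub_self])) a).trans_lt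
      (half_lt_self hd), (sρ b).1⟩
  have s : ∀ m n k l, Sep (barT F m n) (hk va va (pr (fun q => χ q.1 * g q) ρ) k l) :=
    fun m n k l x hx y hy => by
      obtain ⟨a1, a2⟩ := (hf.bar m n).2.2 hx
      obtain ⟨b1, b2⟩ := (CK.inT_hk i1 va va k l).2.2 hy
      change GF.mdot (x - y) (x - y) < 0
      rw [mdot_null, al_sub, be_sub]
      nlinarith [d2_nonneg (tx (x - y))]
  have e : pr g ρ = fun x => pr (fun q => χ q.1 * g q) ρ x +
      1 * pr (fun q => (1 - χ q.1) * g q) ρ x := funext fun x => by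
    simp only [pr]
    push_cast
    ring
  have h1 := CK.op_wdg t (CK.Taa c (pr (fun q => χ q.1 * g q) ρ) c.Q.vac) c.Q.vac hO hX
    (hf.mono fun z a => ⟨by linarith [a.2], by linarith [a.1]⟩)
  have h2 := CK.op_wdg t (c.Tf (barT F) c.Q.vac) c.Q.vac hO hX (CK.inT_hk i2 va va)
  rw [CK.Taa, CK.Tf_com hf.tst.bar (CK.tsT_hk i1.1 _ _) s] at h1
  rw [CK.barT_hk, Ap.bar_pr] at h2
  change inner ℂ ((CK.Taa c _ _ : D) : Completion D) _ = _
  rw [e, CK.Taa_lin 1 i1.1 i2.1, one_smul, Completion.coe_add, inner_add_left]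
  exact congrArg₂ _ h1 (h2.trans (star_inner _ _ _).symm)

end

end Vale.Agent.P352L.BP
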